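import Vale.Agent.P011Z.Cl.Red1.Sing

/-!
Classification of the forms: block Red1, the reduction of the isotropy of the norm to the case of
a cyclic frame over a totally imaginary field.
-/

open Matrix Module

noncomputable section

namespace Vale.Agent.P011Z.Cl.Red1x

open Vale.Agent.P011.D4 Vale.Agent.P011.D4.Oct Vale.Agent.P011.E6 Vale.Agent.P011.E6.Alb

section cubic

theorem exists_roots (a b c : Om) : ∃ t : Fin 3 → Om, ∀ z : Om,
    z ^ 3 + a * z ^ 2 + b * z + c = (z - t 0) * (z - t 1) * (z - t 2) := by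
  obtain ⟨r, hr⟩ := IsAlgClosed.exists_root (Cubic.toPoly ⟨1, a, b, c⟩) (by
    rw [Cubic.degree_of_a_ne_zero one_ne_zero]
    decide)
  have h1 : r ^ 3 + a * r ^ 2 + b * r + c = 0 := by simpa [Cubic.toPoly] using hr
  obtain ⟨s, hs⟩ := IsAlgClosed.exists_pow_nat_eq ((a + r) ^ 2 - 4 * (b + r * (a + r))) two_pos
  refine ⟨![r, (-(a + r) + s) / 2, (-(a + r) - s) / 2], fun z => ?_⟩
  change _ = (z - r) * (z - (-(a + r) + s) / 2) * (z - (-(a + r) - s) / 2)
  linear_combination h1 + (z - r) / 4 * hs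

variable {a b c a' b' c' : Om}

theorem symm3 (h : ∀ z, (z - a') * (z - b') * (z - c') = (z - a) * (z - b) * (z - c)) :
    a' + b' + c' = a + b + c ∧ a' * b' + b' * c' + c' * a' = a * b + b * c + c * a ∧
      a' * b' * c' = a * b * c := by
  have h0 := h 0
  have h1 := h 1
  have h2 := h (-1)
  exact ⟨by linear_combination h0 - h1 / 2 - h2 / 2, by linear_combination h1 / 2 - h2 / 2,
    by linear_combination -h0⟩

theorem disc_eq (h : ∀ z, (z - a') * (z - b') * (z - c') = (z - a) * (z - b) * (z - c)) :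
    ((a' - b') * (b' - c') * (c' - a')) ^ 2 = ((a - b) * (b - c) * (c - a)) ^ 2 := by
  obtain ⟨h1, h2, h3⟩ := symm3 h
  have key : ∀ x y z : Om, ((x - y) * (y - z) * (z - x)) ^ 2 =
      (x + y + z) ^ 2 * (x * y + y * z + z * x) ^ 2 - 4 * (x * y + y * z + z * x) ^ 3 -
        4 * (x + y + z) ^ 3 * (x * y * z) + 18 * (x + y + z) * (x * y + y * z + z * x) *
          (x * y * z) - 27 * (x * y * z) ^ 2 := fun x y z => by ring
  rw [key, key, h1, h2, h3]

theorem dbl (h : ∀ z, (z - a') * (z - a') * (z - c') = (z - a) * (z - a) * (z - c)) :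
    a' = a := by
  by_contra h0
  have h1 : a' - a ≠ 0 := sub_ne_zero.2 h0
  have h2 : a' = c := by
    have h3 := h a'
    rw [sub_self, zero_mul, zero_mul] at h3
    exact sub_eq_zero.1 ((mul_eq_zero.1 h3.symm).resolve_left (mul_ne_zero h1 h1))
  have h4 : a = c' := by
    have h3 := h a
    have h5 : a - a' ≠ 0 := sub_ne_zero.2 (Ne.symm h0)
    rw [sub_self, zero_mul, zero_mul] at h3
    exact sub_eq_zero.1 ((mul_eq_zero.1 h3).resolve_left (mul_ne_zero h5 h5))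
  apply h0
  linear_combination (symm3 h).1 - h2 + h4

theorem cyc0 (h : ∀ z, (z - a') * (z - b') * (z - c') = (z - a) * (z - b) * (z - c))
    (hd : (a' - b') * (b' - c') * (c' - a') = (a - b) * (b - c) * (c - a))
    (h0 : (a - b) * (b - c) * (c - a) ≠ 0) (ha : a' = a) : b' = b ∧ c' = c := by
  obtain ⟨h1, h2, -⟩ := symm3 h
  subst ha
  have h3 : c' = b + c - b' := by linear_combination h1
  subst h3
  have h4 : (b' - b) * (b' - c) = 0 := by linear_combination -h2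
  rcases mul_eq_zero.1 h4 with h5 | h5
  · have h6 : b' = b := sub_eq_zero.1 h5
    exact ⟨h6, by rw [h6]; ring⟩
  · have h6 : b' = c := sub_eq_zero.1 h5
    subst h6
    exact absurd (by linear_combination -hd / 2) h0

theorem cyc {s t : Fin 3 → Om}
    (h : ∀ z, (z - s 0) * (z - s 1) * (z - s 2) = (z - t 0) * (z - t 1) * (z - t 2))
    (hd : (s 0 - s 1) * (s 1 - s 2) * (s 2 - s 0) = (t 0 - t 1) * (t 1 - t 2) * (t 2 - t 0))
    (h0 : (t 0 - t 1) * (t 1 - t 2) * (t 2 - t 0) ≠ 0) : ∃ c : Fin 3, ∀ i, s i = t (i + c) := by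
  have h1 := h (s 0)
  rw [sub_self, zero_mul, zero_mul] at h1
  rcases mul_eq_zero.1 h1.symm with h2 | h2
  · rcases mul_eq_zero.1 h2 with h3 | h3
    · have h4 := sub_eq_zero.1 h3
      obtain ⟨h5, h6⟩ := cyc0 h hd h0 h4
      refine ⟨0, fun i => ?_⟩
      fin_cases i
      exacts [h4, h5, h6]
    · have h4 := sub_eq_zero.1 h3
      obtain ⟨h5, h6⟩ := cyc0 (b := t 2) (c := t 0) (fun z => by rw [h]; ring)
        (by rw [hd]; ring) (fun h7 => h0 (by rw [← h7]; ring)) h4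
      refine ⟨1, fun i => ?_⟩
      fin_cases i
      exacts [h4, h5, h6]
  · have h4 := sub_eq_zero.1 h2
    obtain ⟨h5, h6⟩ := cyc0 (b := t 0) (c := t 1) (fun z => by rw [h]; ring)
      (by rw [hd]; ring) (fun h7 => h0 (by rw [← h7]; ring)) h4
    refine ⟨2, fun i => ?_⟩
    fin_cases i
    exacts [h4, h5, h6]

theorem inj3 {t : Fin 3 → Om} (h0 : (t 0 - t 1) * (t 1 - t 2) * (t 2 - t 0) ≠ 0) :
    Function.Injective t := by
  have h1 : t 0 ≠ t 1 := sub_ne_zero.1 (left_ne_zero_of_mul (left_ne_zero_of_mul h0))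
  have h2 : t 1 ≠ t 2 := sub_ne_zero.1 (right_ne_zero_of_mul (left_ne_zero_of_mul h0))
  have h3 : t 2 ≠ t 0 := sub_ne_zero.1 (right_ne_zero_of_mul h0)
  intro i j hij
  fin_cases i <;> fin_cases j
  · rfl
  · exact absurd hij h1
  · exact absurd hij h3.symm
  · exact absurd hij h1.symm
  · rfl
  · exact absurd hij h2
  · exact absurd hij h3
  · exact absurd hij h2.symm
  · rfl

end cubic

variable {G : Subgroup Gq} {f : Gq → J → J}

/-- The isotropy of the norm in the case of a cyclic frame over a totally imaginary field. -/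
def RC : Prop := ∀ (G : Subgroup Gq) (f : Gq → J → J), TA G f →
  (∀ σ ∈ G, ∀ x, cub (f σ x) = σ (cub x)) → ∀ χ : Gq → Fin 3, Chi G χ → ∀ ρ ∈ G, χ ρ = 1 →
    (∀ σ ∈ G, ∀ i, f σ (ee i) = ee (i + χ σ)) → (∀ ι γ, Cj ι γ → γ ∉ G) →
      ∃ x, x ≠ 0 ∧ Fv G f x ∧ cub x = 0

theorem j1_eq : j1 = ee 0 + ee 1 + ee 2 := by
  ext1 <;> simp [ee, j1, jm]

theorem ta_conj (h : TA G f) (ψ : J ≃ₗ[Om] J) : TA G fun σ x => ψ.symm (f σ (ψ x)) := by
  have := fd_J
  refine ⟨h.opn, fun σ hσ => ?_, fun σ hσ τ hτ x => ?_, h.smo.conj h.semi ψ⟩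
  · have h1 := (semi_lin ψ.symm).comp ((h.semi σ hσ).comp (semi_lin ψ))
    rwa [one_mul, mul_one] at h1
  · rw [ψ.apply_symm_apply, h.mul σ hσ τ hτ]

/-- A frame which is permuted cyclically. -/
theorem of_frame (hR : RC) (h : TA G f) (hs : ∀ σ ∈ G, Sim σ (f σ)) (hc : ∀ ι γ, Cj ι γ → γ ∉ G)
    {χ : Gq → Fin 3} (hχ : Chi G χ) {ρ : Gq} (hρ : ρ ∈ G) (h1 : χ ρ = 1) {e : Fin 3 → J}
    (he : Frame e) (h2 : ∀ σ ∈ G, ∀ i, f σ (e i) = e (i + χ σ))
    (h3 : Fv G f (e 0 + e 1 + e 2)) : ∃ y, y ≠ 0 ∧ Fv G f y ∧ cub y = 0 := by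
  obtain ⟨ψ, k1, k2⟩ := frame_trans he
  have k3 : ψ j1 = e 0 + e 1 + e 2 := by rw [j1_eq, map_add, map_add, k2, k2, k2]
  obtain ⟨x, a1, a2, a3⟩ := hR G _ (ta_conj h ψ) (fun σ hσ x => by
    obtain ⟨l, -, hl⟩ := (k1.symm.comp ((hs σ hσ).comp k1)).mult
    rw [one_mul, mul_one] at hl
    have h4 := hl j1
    rw [k3, h3 σ hσ, ← k3, ψ.symm_apply_apply, Cubx.cub_j1, map_one, mul_one] at h4
    rw [hl, ← h4, one_mul]) χ hχ ρ hρ h1
    (fun σ hσ i => by rw [k2, h2 σ hσ, ← k2, ψ.symm_apply_apply]) hc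
  obtain ⟨l, -, hl⟩ := k1.mult
  refine ⟨ψ x, fun h4 => a1 (ψ.injective (by rw [h4, map_zero])), fun σ hσ => ?_, ?_⟩
  · exact (ψ.symm_apply_eq.1 (a2 σ hσ))
  · rw [hl, a3, map_zero, mul_zero]

theorem adj_line (t : Om) (u x : J) :
    adj (t • u - x) = t ^ 2 • adj u - t • cross u x + adj x := by
  rw [sub_eq_add_neg, adj_add, adj_smul, adj_neg, cross_neg_right, cross_smul_left,
    sub_eq_add_neg]

/-- The case of three distinct roots which are permuted cyclically. -/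
theorem of_roots (hR : RC) (h : TA G f) (hs : ∀ σ ∈ G, Sim σ (f σ))
    (hc : ∀ ι γ, Cj ι γ → γ ∉ G) {u x : J} (hu : Fv G f u) (hu0 : cub u ≠ 0) (hx : Fv G f x)
    {t : Fin 3 → Om} (ht : ∀ i, cub (t i • u - x) = 0)
    (h0 : (t 0 - t 1) * (t 1 - t 2) * (t 2 - t 0) ≠ 0) {χ : Gq → Fin 3}
    (hχ : ∀ σ ∈ G, ∀ i, σ (t i) = t (i + χ σ)) {ρ : Gq} (hρ : ρ ∈ G) (h1 : χ ρ = 1) :
    ∃ y, y ≠ 0 ∧ Fv G f y ∧ cub y = 0 := by
  have hi := inj3 h0
  have hC : Chi G χ := by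
    refine ⟨fun σ hσ τ hτ => hi ?_, _, opn_stab (t 0), fun σ h2 hσ => hi ?_⟩
    · have h2 := hχ _ (G.mul_mem hσ hτ) 0
      rw [AlgEquiv.mul_apply, hχ τ hτ, hχ σ hσ, zero_add, zero_add, add_comm] at h2
      exact h2.symm
    · have h3 := hχ σ hσ 0
      rw [zero_add] at h3
      exact h3.symm.trans h2
  obtain ⟨e, he⟩ : ∃ e : Fin 3 → J, ∀ i, e i =
      (cub u * ((t i - t (i + 1)) * (t i - t (i + 2))))⁻¹ • uo u (adj (t i • u - x)) :=
    ⟨_, fun _ => rfl⟩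
  have h01 : t 0 - t 1 ≠ 0 := left_ne_zero_of_mul (left_ne_zero_of_mul h0)
  have h12 : t 1 - t 2 ≠ 0 := right_ne_zero_of_mul (left_ne_zero_of_mul h0)
  have h20 : t 2 - t 0 ≠ 0 := right_ne_zero_of_mul h0
  have h10 : t 1 - t 0 ≠ 0 := fun h2 => h01 (by linear_combination -h2)
  have h21 : t 2 - t 1 ≠ 0 := fun h2 => h12 (by linear_combination -h2)
  have h02 : t 0 - t 2 ≠ 0 := fun h2 => h20 (by linear_combination -h2)
  have hsum : e 0 + e 1 + e 2 = u := by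
    have e0 : e 0 = (cub u * ((t 0 - t 1) * (t 0 - t 2)))⁻¹ • uo u (adj (t 0 • u - x)) := he 0
    have e1 : e 1 = (cub u * ((t 1 - t 2) * (t 1 - t 0)))⁻¹ • uo u (adj (t 1 • u - x)) := he 1
    have e2 : e 2 = (cub u * ((t 2 - t 0) * (t 2 - t 1)))⁻¹ • uo u (adj (t 2 • u - x)) := he 2
    have key : ∀ s : Om, uo u (adj (s • u - x)) =
        (s ^ 2 * cub u) • u - s • uo u (cross u x) + uo u (adj x) := fun s => by
      rw [adj_line, (uo_lin u).map_add, (uo_lin u).map_sub, (uo_lin u).map_smul,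
        (uo_lin u).map_smul, uo_adj, smul_smul]
    rw [e0, e1, e2, key, key, key]
    match_scalars <;> field_simp <;> ring
  have hsing : ∀ i, adj (e i) = 0 := fun i => by
    rw [he, adj_smul, adj_uo_adj u (ht i), smul_zero]
  refine of_frame hR h hs hc hC hρ h1 (e := e) ⟨hsing, ?_⟩ (fun σ hσ i => ?_)
    (by rw [hsum]; exact hu)
  · rw [← cub_three (hsing 0) (hsing 1) (hsing 2), hsum]
    exact hu0
  · obtain ⟨l, hl0, hl⟩ := (hs σ hσ).mult
    have hσ' := h.semi σ hσ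
    have h2 := uo_adj_sim (hs σ hσ) hl u (t i • u - x)
    rw [hσ'.sub, hσ'.smul, hu σ hσ, hx σ hσ, hχ σ hσ] at h2
    have h3 := hl u
    rw [hu σ hσ] at h3
    rw [he, he, hσ'.smul, h2, smul_smul, map_inv₀, map_mul, map_mul, map_sub, map_sub, hχ σ hσ,
      hχ σ hσ, hχ σ hσ, add_right_comm i 1, add_right_comm i 2]
    congr 1
    generalize σ (cub u) = c at h3 ⊢
    rw [h3, mul_assoc, mul_inv l, mul_right_comm, inv_mul_cancel₀ hl0, one_mul]

theorem cub_line (z : Om) (u x : J) : cub (z • u - x) =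
    z ^ 3 * cub u - z ^ 2 * tf (adj u) x + z * tf u (adj x) - cub x := by
  rw [sub_eq_add_neg, cub_add, cub_smul, adj_smul, adj_neg, cub_neg, tf_smul_left, tf_smul_left,
    tf_neg_right]
  ring

theorem exists_indep (h : TA G f) {u : J} (hu : cub u ≠ 0) :
    ∃ x, Fv G f x ∧ ∀ s : Om, s • u - x ≠ 0 := by
  by_contra h0
  simp only [not_exists, not_and, not_forall, not_not] at h0
  have h1 : Submodule.span Om {x | Fv G f x} ≤ Submodule.span Om {u} :=
    Submodule.span_le.2 fun x hx => by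
      obtain ⟨s, hs⟩ := h0 x hx
      exact Submodule.mem_span_singleton.2 ⟨s, sub_eq_zero.1 hs⟩
  rw [h.span] at h1
  obtain ⟨s, hs⟩ := Submodule.mem_span_singleton.1 (h1 (Submodule.mem_top (x := ee 0)))
  have h2 := congrArg cub hs
  have h3 := tf_adj_self (ee 0)
  rw [frame_ee.1 0, tf_zero_left] at h3
  rw [cub_smul, (mul_eq_zero.1 h3.symm).resolve_left three_ne_zero] at h2
  rw [pow_eq_zero_iff three_ne_zero |>.1 ((mul_eq_zero.1 h2).resolve_right hu), zero_smul] at hs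
  exact Frmx.ee_ne 0 hs.symm

/-- The totally imaginary case. -/
theorem iso0 (hR : RC) (h : TA G f) (hs : ∀ σ ∈ G, Sim σ (f σ)) (hc : ∀ ι γ, Cj ι γ → γ ∉ G) :
    ∃ y, y ≠ 0 ∧ Fv G f y ∧ cub y = 0 := by
  obtain ⟨u, hu, hu0⟩ := exists_unit h
  obtain ⟨x, hx, hx0⟩ := exists_indep h hu0
  obtain ⟨t, ht⟩ := exists_roots (-tf (adj u) x / cub u) (tf u (adj x) / cub u) (-cub x / cub u)
  have h1 : ∀ z : Om, cub (z • u - x) = cub u * ((z - t 0) * (z - t 1) * (z - t 2)) := fun z => by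
    rw [← ht, cub_line]
    field_simp
    ring
  have h2 : ∀ i, cub (t i • u - x) = 0 := fun i => by
    rw [h1]
    fin_cases i <;> simp
  have h3 : ∀ σ ∈ G, ∀ z, (z - σ (t 0)) * (z - σ (t 1)) * (z - σ (t 2)) =
      (z - t 0) * (z - t 1) * (z - t 2) := fun σ hσ z => by
    obtain ⟨w, rfl⟩ := σ.surjective z
    obtain ⟨l, -, hl⟩ := (hs σ hσ).mult
    have h4 := hl u
    have h5 := hl (w • u - x)
    rw [hu σ hσ] at h4
    rw [(h.semi σ hσ).sub, (h.semi σ hσ).smul, hu σ hσ, hx σ hσ, h1, h1, map_mul, ← mul_assoc l,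
      ← h4, map_mul, map_mul, map_sub, map_sub, map_sub] at h5
    exact (mul_left_cancel₀ hu0 h5).symm
  have hfix : ∀ K : Subgroup Gq, K ≤ G → ∀ i, Fx K (t i) →
      ∃ y, y ≠ 0 ∧ Fv K f y ∧ cub y = 0 := fun K hK i hi =>
    ⟨_, hx0 (t i), fun σ hσ => by
      rw [(h.semi σ (hK hσ)).sub, (h.semi σ (hK hσ)).smul, hu σ (hK hσ), hx σ (hK hσ), hi σ hσ],
      h2 i⟩
  by_cases h0 : (t 0 - t 1) * (t 1 - t 2) * (t 2 - t 0) = 0
  · rcases mul_eq_zero.1 h0 with h4 | h4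
    · rcases mul_eq_zero.1 h4 with h5 | h5
      · refine hfix G le_rfl 0 fun σ hσ => dbl (c := t 2) (c' := σ (t 2)) fun z => ?_
        have h6 := h3 σ hσ z
        rwa [← sub_eq_zero.1 h5] at h6
      · refine hfix G le_rfl 1 fun σ hσ => dbl (c := t 0) (c' := σ (t 0)) fun z => ?_
        have h6 := h3 σ hσ z
        rw [← sub_eq_zero.1 h5] at h6
        linear_combination h6
    · refine hfix G le_rfl 2 fun σ hσ => dbl (c := t 1) (c' := σ (t 1)) fun z => ?_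
      have h6 := h3 σ hσ z
      rw [← sub_eq_zero.1 h4] at h6
      linear_combination h6
  obtain ⟨d, hd⟩ : ∃ d, d = (t 0 - t 1) * (t 1 - t 2) * (t 2 - t 0) := ⟨_, rfl⟩
  have hσd : ∀ σ : Gq, σ d = (σ (t 0) - σ (t 1)) * (σ (t 1) - σ (t 2)) * (σ (t 2) - σ (t 0)) :=
    fun σ => by rw [hd, map_mul, map_mul, map_sub, map_sub, map_sub]
  have hx2 : Ix2 G (MulAction.stabilizer Gq d) := ix2_stab fun σ hσ => by
    rw [map_pow, hσd, disc_eq (h3 σ hσ), hd]
  have hle : G ⊓ MulAction.stabilizer Gq d ≤ G := inf_le_left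
  have hK : TA (G ⊓ MulAction.stabilizer Gq d) f := h.mono (h.opn.inf (opn_stab d)) hle
  have hcy : ∀ σ ∈ G ⊓ MulAction.stabilizer Gq d, ∃ c : Fin 3, ∀ i, σ (t i) = t (i + c) :=
    fun σ hσ => cyc (s := fun i => σ (t i)) (h3 σ hσ.1) (by
      have h4 : σ d = d := hσ.2
      rw [hσd, hd] at h4
      exact h4) h0
  choose! χ hχ using hcy
  have key : ∃ y, y ≠ 0 ∧ Fv (G ⊓ MulAction.stabilizer Gq d) f y ∧ cub y = 0 := by
    by_cases h4 : Fx (G ⊓ MulAction.stabilizer Gq d) (t 0)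
    · exact hfix _ hle 0 h4
    have h5 : ∃ ρ ∈ G ⊓ MulAction.stabilizer Gq d, χ ρ = 1 := by
      simp only [Fx, not_forall] at h4
      obtain ⟨σ, hσ, h5⟩ := h4
      have h6 : χ σ ≠ 0 := fun h7 => h5 (by rw [hχ σ hσ, h7, add_zero])
      by_cases h7 : χ σ = 1
      · exact ⟨σ, hσ, h7⟩
      have h8 : χ σ = 2 := by
        revert h6 h7
        generalize χ σ = j
        revert j
        decide
      refine ⟨σ * σ, mul_mem hσ hσ, inj3 h0 ?_⟩
      have h9 := hχ _ (mul_mem hσ hσ) 0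
      rw [AlgEquiv.mul_apply, hχ σ hσ, hχ σ hσ, h8, zero_add, zero_add] at h9
      exact h9.symm
    obtain ⟨ρ, hρ, h6⟩ := h5
    exact of_roots hR hK (fun σ hσ => hs σ hσ.1) (fun ι γ h7 h8 => hc ι γ h7 h8.1)
      (fun σ hσ => hu σ hσ.1) hu0 (fun σ hσ => hx σ hσ.1) h2 h0 hχ hρ h6
  obtain ⟨y, k1, k2, k3⟩ := key
  exact springer3 h hs hx2 k1 k2 k3

theorem iso (hR : RC) (h : TA G f) (hs : ∀ σ ∈ G, Sim σ (f σ)) :
    ∃ y, y ≠ 0 ∧ Fv G f y ∧ cub y = 0 := by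
  obtain ⟨d, hd⟩ := IsAlgClosed.exists_pow_nat_eq (-1 : Om) two_pos
  have hx2 : Ix2 G (MulAction.stabilizer Gq d) := ix2_stab fun σ _ => by
    rw [hd, map_neg, map_one]
  obtain ⟨y, k1, k2, k3⟩ := iso0 hR (h.mono (h.opn.inf (opn_stab d)) inf_le_left)
    (fun σ hσ => hs σ hσ.1) fun ι γ h1 h2 => by
      have h3 : (ι d).im = 0 := h1.real.1 h2.2
      have h4 := congrArg (fun z => (ι z).re) hd
      simp only [map_neg, map_one, pow_two, map_mul, Complex.mul_re, h3, Complex.neg_re,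
        Complex.one_re] at h4
      nlinarith [mul_self_nonneg (ι d).re]
  exact springer3 h hs hx2 k1 k2 k3

theorem red (hR : RC) (h : TA G f) (hs : ∀ σ ∈ G, Sim σ (f σ)) :
    ∃ y, y ≠ 0 ∧ Fv G f y ∧ adj y = 0 := by
  obtain ⟨y, k1, k2, k3⟩ := iso hR h hs
  exact red_sing h hs k1 k2 k3

end Vale.Agent.P011Z.Cl.Red1x

end
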