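import Vale.Agent.P011Z.Cl.Frm

/-!
Classification of the forms: block Red1, from zeros of the norm to singular vectors, descent of
zeros along quadratic extensions, and density of the singular vectors.
-/

open Matrix Module

noncomputable section

namespace Vale.Agent.P011Z.Cl.Red1x

open Vale.Agent.P011.D4 Vale.Agent.P011.D4.Oct Vale.Agent.P011.E6 Vale.Agent.P011.E6.Alb

variable {G : Subgroup Gq} {f : Gq → J → J}

theorem exists_unit (h : TA G f) : ∃ u, Fv G f u ∧ cub u ≠ 0 := by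
  have := fd_J
  exact den h (Pol.cub (PolM.lin LinearMap.id)) ⟨j1, by
    rw [Cubx.cub_j1]
    exact one_ne_zero⟩

theorem uo_adj_sim {σ : Gq} {g : J → J} (hg : Sim σ g) {l : Om}
    (hl : ∀ x, cub (g x) = l * σ (cub x)) (u w : J) :
    uo (g u) (adj (g w)) = l • g (uo u (adj w)) := by
  rw [adj_sim hg.toSemi hl, (uo_lin _).map_smul, uo_sim hg]

theorem adj_uo_adj (u : J) {w : J} (hw : cub w = 0) : adj (uo u (adj w)) = 0 := by
  rw [adj_uo, adj_adj, hw, zero_smul, (uo_lin _).map_zero]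

theorem red_sing (h : TA G f) (hs : ∀ σ ∈ G, Sim σ (f σ)) {x : J} (h0 : x ≠ 0) (hx : Fv G f x)
    (hc : cub x = 0) : ∃ y, y ≠ 0 ∧ Fv G f y ∧ adj y = 0 := by
  by_cases ha : adj x = 0
  · exact ⟨x, h0, hx, ha⟩
  obtain ⟨u, hu, hu0⟩ := exists_unit h
  have h1 : uo u (adj x) ≠ 0 := fun h2 => by
    have h3 := uo_adj_uo u (adj x)
    rw [h2, (uo_lin _).map_zero] at h3
    exact smul_ne_zero (pow_ne_zero 2 hu0) ha h3.symm
  obtain ⟨t, ht, h2⟩ := h.line (x := uo u (adj x)) ⟨h1, fun σ hσ => by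
    obtain ⟨l, hl0, hl⟩ := (hs σ hσ).mult
    have h3 := uo_adj_sim (hs σ hσ) hl u x
    rw [hu σ hσ, hx σ hσ] at h3
    refine ⟨l⁻¹, ?_⟩
    rw [eq_inv_smul_iff₀ hl0, ← h3]⟩
  exact ⟨_, smul_ne_zero ht h1, h2, by rw [adj_smul, adj_uo_adj u hc, smul_zero]⟩

theorem cub_two {x y : J} (hx : cub x = 0) (hy : cub y = 0) (a b : Om) :
    cub (a • x + b • y) = a ^ 2 * b * tf (adj x) y + a * b ^ 2 * tf x (adj y) := by
  rw [cub_add, cub_smul, cub_smul, hx, hy, adj_smul, adj_smul, tf_smul_left, tf_smul_left,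
    tf_smul_right, tf_smul_right]
  ring

theorem tf_adj_sim {σ : Gq} {g : J → J} (hg : Semi σ g) {l : Om}
    (hl : ∀ x, cub (g x) = l * σ (cub x)) (x y : J) :
    tf (adj (g x)) (g y) = l * σ (tf (adj x) y) := by
  rw [adj_sim hg hl, tf_smul_left, tf_comm, dag_tf hg, tf_comm]

theorem springer3 (h : TA G f) (hs : ∀ σ ∈ G, Sim σ (f σ)) {H : Subgroup Gq} (hx : Ix2 G H)
    {x : J} (h0 : x ≠ 0) (hf : Fv (G ⊓ H) f x) (hc : cub x = 0) :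
    ∃ y, y ≠ 0 ∧ Fv G f y ∧ cub y = 0 := by
  by_cases hH : ∀ σ ∈ G, σ ∈ H
  · exact ⟨x, h0, fun σ hσ => hf σ ⟨hσ, hH σ hσ⟩, hc⟩
  simp only [not_forall] at hH
  obtain ⟨s, hsG, hsH⟩ := hH
  have hi := G.inv_mem hsG
  have hiH : s⁻¹ ∉ H := fun h1 => hsH (H.inv_mem_iff.1 h1)
  have key : ∀ σ ∈ G, σ ∉ H → f σ x = f s x := fun σ hσ h1 => by
    have h2 : s⁻¹ * σ ∈ H := (hx _ hi _ hσ).2 (iff_of_false hiH h1)
    have h3 := h.mul s hsG _ (G.mul_mem hi hσ) x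
    rw [hf _ ⟨G.mul_mem hi hσ, h2⟩, mul_inv_cancel_left] at h3
    exact h3.symm
  obtain ⟨x', hx'⟩ : ∃ x', x' = f s x := ⟨_, rfl⟩
  have hc' : cub x' = 0 := by
    obtain ⟨l, -, hl⟩ := (hs s hsG).mult
    rw [hx', hl, hc, map_zero, mul_zero]
  have hsw : ∀ σ ∈ G, (f σ x = x ∧ f σ x' = x') ∨ (f σ x = x' ∧ f σ x' = x) := fun σ hσ => by
    by_cases h1 : σ ∈ H
    · refine Or.inl ⟨hf σ ⟨hσ, h1⟩, ?_⟩
      rw [hx', h.mul σ hσ s hsG]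
      exact key _ (G.mul_mem hσ hsG) fun h2 => hsH (((hx _ hσ _ hsG).1 h2).1 h1)
    · refine Or.inr ⟨by rw [hx', key σ hσ h1], ?_⟩
      rw [hx', h.mul σ hσ s hsG]
      exact hf _ ⟨G.mul_mem hσ hsG, (hx _ hσ _ hsG).2 (iff_of_false h1 hsH)⟩
  obtain ⟨a, ha⟩ : ∃ a, a = tf (adj x) x' := ⟨_, rfl⟩
  obtain ⟨b, hb⟩ : ∃ b, b = tf (adj x') x := ⟨_, rfl⟩
  have hcub : ∀ p q : Om, cub (p • x + q • x') = p ^ 2 * q * a + p * q ^ 2 * b := fun p q => by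
    rw [cub_two hc hc', ha, hb, tf_comm x]
  by_cases hy : b • x + (-a) • x' = 0
  · have ha0 : a = 0 := by
      have h1 := congrArg (tf (adj x)) hy
      rw [tf_add_right, tf_smul_right, tf_smul_right, tf_adj_self, hc, ← ha, tf_zero_right] at h1
      exact mul_self_eq_zero.1 (by linear_combination -h1)
    have hb0 : b = 0 := by
      rw [ha0, neg_zero, zero_smul, add_zero] at hy
      exact (smul_eq_zero.1 hy).resolve_right h0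
    obtain ⟨y, hy1, hy2, hy3⟩ := h.exists_fixed (Submodule.span Om {x, x'}) (fun σ hσ z hz => by
      obtain ⟨p, q, rfl⟩ := Submodule.mem_span_pair.1 hz
      rw [(h.semi σ hσ).add, (h.semi σ hσ).smul, (h.semi σ hσ).smul]
      rcases hsw σ hσ with ⟨h1, h2⟩ | ⟨h1, h2⟩
      · rw [h1, h2]
        exact Submodule.mem_span_pair.2 ⟨_, _, rfl⟩
      · rw [h1, h2]
        exact Submodule.mem_span_pair.2 ⟨_, _, add_comm _ _⟩)
      (fun h1 => h0 ((Submodule.eq_bot_iff _).1 h1 x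
        (Submodule.subset_span (Set.mem_insert _ _))))
    obtain ⟨p, q, rfl⟩ := Submodule.mem_span_pair.1 hy1
    refine ⟨_, hy2, hy3, ?_⟩
    rw [hcub, ha0, hb0, mul_zero, mul_zero, add_zero]
  · obtain ⟨t, ht, h2⟩ := h.line (x := b • x + (-a) • x') ⟨hy, fun σ hσ => by
      obtain ⟨l, hl0, hl⟩ := (hs σ hσ).mult
      have e1 := tf_adj_sim (h.semi σ hσ) hl x x'
      have e2 := tf_adj_sim (h.semi σ hσ) hl x' x
      rw [(h.semi σ hσ).add, (h.semi σ hσ).smul, (h.semi σ hσ).smul, map_neg]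
      rw [← ha] at e1
      rw [← hb] at e2
      rcases hsw σ hσ with ⟨h1, h2⟩ | ⟨h1, h2⟩
      · rw [h1, h2, ← ha] at e1
        rw [h1, h2, ← hb] at e2
        have e3 : σ a = l⁻¹ * a := by rw [eq_inv_mul_iff_mul_eq₀ hl0, ← e1]
        have e4 : σ b = l⁻¹ * b := by rw [eq_inv_mul_iff_mul_eq₀ hl0, ← e2]
        refine ⟨l⁻¹, ?_⟩
        rw [h1, h2, e3, e4]
        module
      · rw [h1, h2, ← hb] at e1
        rw [h1, h2, ← ha] at e2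
        have e3 : σ a = l⁻¹ * b := by rw [eq_inv_mul_iff_mul_eq₀ hl0, ← e1]
        have e4 : σ b = l⁻¹ * a := by rw [eq_inv_mul_iff_mul_eq₀ hl0, ← e2]
        refine ⟨-l⁻¹, ?_⟩
        rw [h1, h2, e3, e4]
        module⟩
    refine ⟨_, smul_ne_zero ht hy, h2, ?_⟩
    rw [cub_smul, hcub]
    ring

theorem semi_prod {σ : Gq} {g : J → J} (hg : Semi σ g) :
    Semi σ fun y : J × J => (g y.1, g y.2) :=
  ⟨fun _ _ => Prod.ext (hg.add _ _) (hg.add _ _), fun _ _ => Prod.ext (hg.smul _ _) (hg.smul _ _),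
    hg.bij.prodMap hg.bij⟩

theorem ta_prod (h : TA G f) : TA G fun σ (y : J × J) => (f σ y.1, f σ y.2) := by
  refine ⟨h.opn, fun σ hσ => semi_prod (h.semi σ hσ),
    fun σ hσ τ hτ y => Prod.ext (h.mul σ hσ τ hτ _) (h.mul σ hσ τ hτ _), fun y => ?_⟩
  obtain ⟨H, hH, h1⟩ := h.smo y.1
  obtain ⟨K, hK, h2⟩ := h.smo y.2
  exact ⟨H ⊓ K, hH.inf hK, fun σ h3 h4 => Prod.ext (h1 σ h3.1 h4) (h2 σ h3.2 h4)⟩

/-- A dense family of rational singular vectors. -/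
theorem fam (h : TA G f) (hs : ∀ σ ∈ G, Sim σ (f σ)) (hr : ∃ y, y ≠ 0 ∧ Fv G f y ∧ adj y = 0) :
    ∃ F : J × J → J, PolM F ∧ (∀ y, adj (F y) = 0) ∧ (∀ x, adj x = 0 → ∃ y, F y = x) ∧
      ∀ y, Fv G (fun σ (y : J × J) => (f σ y.1, f σ y.2)) y →
        ∃ c : Om, c ≠ 0 ∧ Fv G f (c • F y) := by
  obtain ⟨x₀, h0, h1, h2⟩ := hr
  obtain ⟨F, k1, k2, k3, k4⟩ := sden h2 h0
  refine ⟨F, k1, k2, k3, fun y hy => ?_⟩
  by_cases h3 : F y = 0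
  · exact ⟨1, one_ne_zero, by rw [h3, smul_zero]; exact h.fv_zero⟩
  refine h.line ⟨h3, fun σ hσ => ?_⟩
  obtain ⟨t, ht, h4⟩ := k4 σ (f σ) (hs σ hσ) ⟨1, by rw [h1 σ hσ, one_smul]⟩
  have h5 := h4 y
  have h6 : (f σ y.1, f σ y.2) = y := hy σ hσ
  rw [h6] at h5
  exact ⟨t⁻¹, by rw [eq_inv_smul_iff₀ ht, ← h5]⟩

theorem sing_den (h : TA G f) (hs : ∀ σ ∈ G, Sim σ (f σ))
    (hr : ∃ y, y ≠ 0 ∧ Fv G f y ∧ adj y = 0) {p : J → Om} (hp : Pol p) {n : ℕ}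
    (hh : ∀ (t : Om) x, p (t • x) = t ^ n * p x) (h0 : ∃ x, adj x = 0 ∧ p x ≠ 0) :
    ∃ x, Fv G f x ∧ adj x = 0 ∧ p x ≠ 0 := by
  have := fd_J
  obtain ⟨F, k1, k2, k3, k4⟩ := fam h hs hr
  obtain ⟨x, h1, h2⟩ := h0
  obtain ⟨y, rfl⟩ := k3 x h1
  obtain ⟨z, h3, h4⟩ := den (ta_prod h) (hp.comp k1) ⟨y, h2⟩
  obtain ⟨c, hc, h5⟩ := k4 z h3
  refine ⟨_, h5, by rw [adj_smul, k2, smul_zero], ?_⟩
  rw [hh]
  exact mul_ne_zero (pow_ne_zero n hc) h4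

theorem frame_den (h : TA G f) (hs : ∀ σ ∈ G, Sim σ (f σ))
    (hr : ∃ y, y ≠ 0 ∧ Fv G f y ∧ adj y = 0) : ∃ x : Fin 3 → J, (∀ i, Fv G f (x i)) ∧ Frame x := by
  obtain ⟨x₀, h0, h1, h2⟩ := id hr
  obtain ⟨ψ, k1, k2⟩ := sing_trans h2 h0
  have k3 := Frmx.frame_map k1 frame_ee
  obtain ⟨x₁, a1, a2, a3⟩ := sing_den h hs hr (p := fun y => tf (cross x₀ y) (ψ (ee 2)))
    (Pol.tf ((PolM.const _).cross (PolM.lin LinearMap.id)) (PolM.const _)) (n := 1)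
    (fun t y => by rw [cross_smul_right, tf_smul_left, pow_one])
    ⟨ψ (ee 1), k3.1 1, by rw [← k2]; exact k3.2⟩
  obtain ⟨x₂, b1, b2, b3⟩ := sing_den h hs hr (p := fun y => tf (cross x₀ x₁) y)
    (Pol.tf (PolM.const _) (PolM.lin LinearMap.id)) (n := 1)
    (fun t y => by rw [tf_smul_right, pow_one]) ⟨ψ (ee 2), k3.1 2, a3⟩
  refine ⟨![x₀, x₁, x₂], fun i => ?_, fun i => ?_, b3⟩
  · fin_cases i
    exacts [h1, a1, b1]
  · fin_cases i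
    exacts [h2, a2, b2]

theorem frame_den2 (h : TA G f) (hs : ∀ σ ∈ G, Sim σ (f σ))
    (hr : ∃ y, y ≠ 0 ∧ Fv G f y ∧ adj y = 0) (σ : Fin 3 → Gq)
    (hσ : ∀ i j, (σ i)⁻¹ * σ j ∈ G → i = j) (φ : Fin 3 → J → J) (hφ : ∀ i, Sim (σ i) (φ i)) :
    ∃ x, Fv G f x ∧ Frame fun i => φ i x := by
  have := fd_J
  obtain ⟨F, k1, k2, k3, k4⟩ := fam h hs hr
  choose F' a1 a2 using fun i => k1.semi (semi_prod (hφ i).toSemi) (hφ i).toSemi
  have hp : ∀ i, PolM fun Y : Fin 3 → J × J => F' i (Y i) := fun i =>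
    (a1 i).comp (PolM.lin (LinearMap.proj (R := Om) (φ := fun _ : Fin 3 => J × J) i))
  have hw : ∀ i, ∃ Y, F' i Y = ee i := fun i => by
    obtain ⟨w, hw⟩ := (hφ i).bij.2 (ee i)
    obtain ⟨y, rfl⟩ := k3 w ((hφ i).sing.1 (by rw [hw]; exact frame_ee.1 i))
    exact ⟨_, (a2 i y).trans hw⟩
  choose Y hY using hw
  obtain ⟨y, b1, b2⟩ := den2 (ta_prod h) σ hσ (fun i (y : J × J) => (φ i y.1, φ i y.2))
    (fun i => semi_prod (hφ i).toSemi) (Pol.tf ((hp 0).cross (hp 1)) (hp 2))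
    ⟨Y, by rw [hY, hY, hY]; exact frame_ee.2⟩
  obtain ⟨c, hc, b3⟩ := k4 y b1
  refine ⟨_, b3, fun i => (hφ i).sing.2 (by rw [adj_smul, k2, smul_zero]), ?_⟩
  have b4 : ∀ i, σ i c ≠ 0 := fun i => (map_ne_zero _).2 hc
  rw [a2, a2, a2] at b2
  change tf (cross (φ 0 (c • F y)) (φ 1 (c • F y))) (φ 2 (c • F y)) ≠ 0
  rw [(hφ 0).smul, (hφ 1).smul, (hφ 2).smul, cross_smul_left, cross_smul_right, tf_smul_left,
    tf_smul_left, tf_smul_right]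
  exact mul_ne_zero (b4 0) (mul_ne_zero (b4 1) (mul_ne_zero (b4 2) b2))

end Vale.Agent.P011Z.Cl.Red1x

end
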